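import Mathlib
import Crest.Prelude.Def_BoxFlow

/-!
# Flows of compactly supported `C¹` fields (piece (F) of S0170)

For a `C¹`, compactly supported time-dependent field `U` on three-space that vanishes for times
outside `[1/4, 3/4]`:

* `exists_flow`: there is a map `Φ` with `IsFlow U Φ` (global existence, via Picard–Lindelöf on
  `[-1, 2]` and constancy of the trajectories outside the active time window);
* `flow_eq_of_trajectory`: any flow agrees on `[0, 1]` with any trajectory of the field that starts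
  at the same point (uniqueness via Grönwall).
-/

set_option autoImplicit false
open Crest.AnalysisR.BoxFlow
open scoped NNReal Topology
open Set Metric

namespace Crest.Agent.Helper8.FlowODE

/-- A compactly supported `C¹` field is uniformly Lipschitz in the space variable. -/
theorem lipschitz_slice (U : Field) (hU : ContDiff ℝ 1 U) (hc : HasCompactSupport U) :
    ∃ K : ℝ≥0, ∀ t : ℝ, LipschitzWith K (fun y : Fin 3 → ℝ => U (t, y)) := by
  obtain ⟨K, hK⟩ := hU.lipschitzWith_of_hasCompactSupport hc one_ne_zero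
  refine ⟨K, fun t => ?_⟩
  have h := hK.comp (LipschitzWith.prodMk_left (β := Fin 3 → ℝ) t)
  simpa [Function.comp_def] using h

/-- Existence of a trajectory on `[-1, 2]` through any point at time `0`. -/
theorem exists_traj (U : Field) (hU : ContDiff ℝ 1 U) (hc : HasCompactSupport U)
    (x : Fin 3 → ℝ) :
    ∃ α : ℝ → (Fin 3 → ℝ), α 0 = x ∧
      ∀ t ∈ Icc (-1 : ℝ) 2, HasDerivWithinAt α (U (t, α t)) (Icc (-1 : ℝ) 2) t := by
  obtain ⟨K, hK⟩ := lipschitz_slice U hU hc
  obtain ⟨C, hC⟩ := hU.continuous.bounded_above_of_compact_support hc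
  have h0 : (0 : ℝ) ∈ Icc (-1 : ℝ) 2 := by constructor <;> norm_num
  have hPL : IsPicardLindelof (fun t y => U (t, y)) (⟨0, h0⟩ : Icc (-1 : ℝ) 2) x
      (3 * C.toNNReal) 0 C.toNNReal K :=
    { lipschitzOnWith := fun t _ => (hK t).lipschitzOnWith
      continuousOn := fun y _ =>
        (hU.continuous.comp (Continuous.prodMk_left y)).continuousOn
      norm_le := fun t _ y _ => (hC (t, y)).trans (Real.le_coe_toNNReal C)
      mul_max_le := by
        have hL : (0 : ℝ) ≤ (C.toNNReal : ℝ) := NNReal.coe_nonneg _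
        have hmax : max ((2 : ℝ) - (0 : ℝ)) ((0 : ℝ) - (-1)) = 2 := by norm_num
        show (C.toNNReal : ℝ) * max ((2 : ℝ) - (0 : ℝ)) ((0 : ℝ) - (-1))
          ≤ ((3 * C.toNNReal : ℝ≥0) : ℝ) - ((0 : ℝ≥0) : ℝ)
        rw [hmax]
        push_cast
        linarith }
  exact hPL.exists_eq_forall_mem_Icc_hasDerivWithinAt₀

/-- Clamp the time into `[-1/2, 3/2]`. -/
noncomputable def clamp (t : ℝ) : ℝ := max (-1 / 2) (min t (3 / 2))

theorem clamp_of_mem {t : ℝ} (h1 : -1 / 2 ≤ t) (h2 : t ≤ 3 / 2) : clamp t = t := by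
  unfold clamp
  rw [min_eq_left h2, max_eq_right h1]

theorem clamp_mem (t : ℝ) : clamp t ∈ Icc (-1 / 2 : ℝ) (3 / 2) := by
  unfold clamp
  refine ⟨le_max_left _ _, max_le (by norm_num) (min_le_right _ _)⟩

theorem clamp_lt {t : ℝ} (h : t < 1 / 4) : clamp t < 1 / 4 := by
  unfold clamp
  exact max_lt (by norm_num) (lt_of_le_of_lt (min_le_left _ _) h)

theorem lt_clamp {t : ℝ} (h : 7 / 8 < t) : 7 / 8 < clamp t := by
  unfold clamp
  exact lt_of_lt_of_le (lt_min h (by norm_num)) (le_max_right _ _)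

/-- **Global existence of the flow.** -/
theorem exists_flow (U : Field) (hU : ContDiff ℝ 1 U) (hc : HasCompactSupport U)
    (h0 : ∀ p : ℝ × (Fin 3 → ℝ), p.1 ∉ Set.Icc (1 / 4 : ℝ) (3 / 4) → U p = 0) :
    ∃ Φ : ℝ → (Fin 3 → ℝ) → (Fin 3 → ℝ), IsFlow U Φ := by
  choose α hα0 hα using exists_traj U hU hc
  have hcont : ∀ x, ContinuousOn (α x) (Icc (-1 : ℝ) 2) :=
    fun x t ht => (hα x t ht).continuousWithinAt
  -- trajectories are constant on `[-1, 1/4]`
  have hleft : ∀ x, ∀ t ∈ Icc (-1 : ℝ) (1 / 4), α x t = α x (-1) := by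
    intro x
    apply constant_of_has_deriv_right_zero
      ((hcont x).mono (Icc_subset_Icc le_rfl (by norm_num)))
    intro t ht
    have ht' : t ∈ Icc (-1 : ℝ) 2 := ⟨ht.1, by linarith [ht.2]⟩
    have hz : U (t, α x t) = 0 := h0 _ (fun h => by
      have := h.1
      simp only at this
      linarith [ht.2])
    have h := hα x t ht'
    rw [hz] at h
    exact h.mono_of_mem_nhdsWithin (Icc_mem_nhdsGE_of_mem ⟨ht'.1, by linarith [ht.2]⟩)
  -- trajectories are constant on `[7/8, 2]`
  have hright : ∀ x, ∀ t ∈ Icc (7 / 8 : ℝ) 2, α x t = α x (7 / 8) := by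
    intro x
    apply constant_of_has_deriv_right_zero
      ((hcont x).mono (Icc_subset_Icc (by norm_num) le_rfl))
    intro t ht
    have ht' : t ∈ Icc (-1 : ℝ) 2 := ⟨by linarith [ht.1], ht.2.le⟩
    have hz : U (t, α x t) = 0 := h0 _ (fun h => by
      have := h.2
      simp only at this
      linarith [ht.1])
    have h := hα x t ht'
    rw [hz] at h
    exact h.mono_of_mem_nhdsWithin (Icc_mem_nhdsGE_of_mem ⟨ht'.1, ht.2⟩)
  refine ⟨fun t x => α x (clamp t), fun x => ?_, fun t x => ?_⟩
  · show α x (clamp 0) = x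
    rw [clamp_of_mem (by norm_num) (by norm_num)]
    exact hα0 x
  · show HasDerivAt (fun s => α x (clamp s)) (U (t, α x (clamp t))) t
    rcases lt_or_ge t 0 with ht | ht
    · -- before the active window: locally constant
      have hz : U (t, α x (clamp t)) = 0 := h0 _ (fun h => by
        have := h.1
        simp only at this
        linarith)
      rw [hz]
      have hev : (fun s => α x (clamp s)) =ᶠ[𝓝 t] fun _ => α x (-1) := by
        filter_upwards [Iio_mem_nhds (show t < 1 / 4 by linarith)] with s hs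
        exact hleft x _ ⟨by linarith [(clamp_mem s).1], (clamp_lt hs).le⟩
      exact (hasDerivAt_const t (α x (-1))).congr_of_eventuallyEq hev
    · rcases le_or_gt t 1 with ht1 | ht1
      · -- inside `[0, 1]`: the clamp is inactive near `t`
        have hmem : t ∈ Icc (-1 : ℝ) 2 := ⟨by linarith, by linarith⟩
        rw [clamp_of_mem (by linarith) (by linarith)]
        have hd : HasDerivAt (α x) (U (t, α x t)) t :=
          (hα x t hmem).hasDerivAt (Icc_mem_nhds (by linarith) (by linarith))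
        have hev : (fun s => α x (clamp s)) =ᶠ[𝓝 t] α x := by
          filter_upwards [Ioo_mem_nhds (show -1 / 2 < t by linarith)
            (show t < 3 / 2 by linarith)] with s hs
          rw [clamp_of_mem hs.1.le hs.2.le]
        exact hd.congr_of_eventuallyEq hev
      · -- after the active window: locally constant
        have hz : U (t, α x (clamp t)) = 0 := h0 _ (fun h => by
          have := h.2
          simp only at this
          linarith)
        rw [hz]
        have hev : (fun s => α x (clamp s)) =ᶠ[𝓝 t] fun _ => α x (7 / 8) := by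
          filter_upwards [Ioi_mem_nhds (show 7 / 8 < t by linarith)] with s hs
          exact hright x _ ⟨(lt_clamp hs).le, by linarith [(clamp_mem s).2]⟩
        exact (hasDerivAt_const t (α x (7 / 8))).congr_of_eventuallyEq hev

/-- **Uniqueness on `[0, 1]`**: a flow agrees with any trajectory starting at the same point. -/
theorem flow_eq_of_trajectory (U : Field) (hU : ContDiff ℝ 1 U) (hc : HasCompactSupport U)
    (Φ : ℝ → (Fin 3 → ℝ) → (Fin 3 → ℝ)) (hΦ : IsFlow U Φ)
    (γ : ℝ → (Fin 3 → ℝ)) (x : Fin 3 → ℝ) (hγ0 : γ 0 = x)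
    (hγ : ∀ t ∈ Set.Icc (0 : ℝ) 1, HasDerivWithinAt γ (U (t, γ t)) (Set.Icc 0 1) t) :
    ∀ t ∈ Set.Icc (0 : ℝ) 1, Φ t x = γ t := by
  obtain ⟨K, hK⟩ := lipschitz_slice U hU hc
  have key : EqOn (fun s => Φ s x) γ (Icc 0 1) := by
    apply ODE_solution_unique (v := fun t y => U (t, y)) (K := K) hK
    · exact fun t _ => (hΦ.2 t x).continuousAt.continuousWithinAt
    · exact fun t _ => (hΦ.2 t x).hasDerivWithinAt
    · exact fun t ht => (hγ t ht).continuousWithinAt
    · exact fun t ht => (hγ t (Ico_subset_Icc_self ht)).mono_of_mem_nhdsWithin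
        (Icc_mem_nhdsGE_of_mem ht)
    · show Φ 0 x = γ 0
      rw [hΦ.1 x, hγ0]
  exact fun t ht => key ht

/-- Convenience form: if the candidate trajectory is differentiable on all of `ℝ`. -/
theorem flow_eq_of_trajectory' (U : Field) (hU : ContDiff ℝ 1 U) (hc : HasCompactSupport U)
    (Φ : ℝ → (Fin 3 → ℝ) → (Fin 3 → ℝ)) (hΦ : IsFlow U Φ)
    (γ : ℝ → (Fin 3 → ℝ)) (x : Fin 3 → ℝ) (hγ0 : γ 0 = x)
    (hγ : ∀ t ∈ Set.Icc (0 : ℝ) 1, HasDerivAt γ (U (t, γ t)) t) :
    ∀ t ∈ Set.Icc (0 : ℝ) 1, Φ t x = γ t :=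
  flow_eq_of_trajectory U hU hc Φ hΦ γ x hγ0 (fun t ht => (hγ t ht).hasDerivWithinAt)

/-! ### General versions (no hypothesis on the time window) -/

/-- A compactly supported field vanishes for large times. -/
theorem exists_time_bound (U : Field) (hc : HasCompactSupport U) :
    ∃ T : ℝ, 0 < T ∧ ∀ p : ℝ × (Fin 3 → ℝ), T ≤ |p.1| → U p = 0 := by
  obtain ⟨R, hR⟩ := (IsCompact.isBounded hc).subset_closedBall (0 : ℝ × (Fin 3 → ℝ))
  refine ⟨max R 0 + 1, by positivity, fun p hp => ?_⟩
  by_contra hne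
  have hmem : p ∈ tsupport U := subset_tsupport U (Function.mem_support.mpr hne)
  have h2 := hR hmem
  rw [mem_closedBall, dist_zero_right] at h2
  have h1 : |p.1| ≤ ‖p‖ := by
    rw [← Real.norm_eq_abs]
    exact norm_fst_le p
  linarith [le_max_left R 0]

/-- Existence of a trajectory on `[-S, S]` through any point at time `0`. -/
theorem exists_traj_gen (U : Field) (hU : ContDiff ℝ 1 U) (hc : HasCompactSupport U)
    (S : ℝ) (hS : 0 ≤ S) (x : Fin 3 → ℝ) :
    ∃ α : ℝ → (Fin 3 → ℝ), α 0 = x ∧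
      ∀ t ∈ Icc (-S) S, HasDerivWithinAt α (U (t, α t)) (Icc (-S) S) t := by
  obtain ⟨K, hK⟩ := lipschitz_slice U hU hc
  obtain ⟨C, hC⟩ := hU.continuous.bounded_above_of_compact_support hc
  have h0 : (0 : ℝ) ∈ Icc (-S) S := ⟨by linarith, hS⟩
  have hPL : IsPicardLindelof (fun t y => U (t, y)) (⟨0, h0⟩ : Icc (-S) S) x
      (S.toNNReal * C.toNNReal) 0 C.toNNReal K :=
    { lipschitzOnWith := fun t _ => (hK t).lipschitzOnWith
      continuousOn := fun y _ =>
        (hU.continuous.comp (Continuous.prodMk_left y)).continuousOn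
      norm_le := fun t _ y _ => (hC (t, y)).trans (Real.le_coe_toNNReal C)
      mul_max_le := by
        have hL : (0 : ℝ) ≤ (C.toNNReal : ℝ) := NNReal.coe_nonneg _
        have hmax : max (S - (0 : ℝ)) ((0 : ℝ) - (-S)) = S := by
          rw [sub_zero, zero_sub, neg_neg, max_self]
        show (C.toNNReal : ℝ) * max (S - (0 : ℝ)) ((0 : ℝ) - (-S))
          ≤ ((S.toNNReal * C.toNNReal : ℝ≥0) : ℝ) - ((0 : ℝ≥0) : ℝ)
        rw [hmax, NNReal.coe_mul, Real.coe_toNNReal S hS, NNReal.coe_zero, sub_zero, mul_comm] }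
  exact hPL.exists_eq_forall_mem_Icc_hasDerivWithinAt₀

/-- Clamp the time into `[-S, S]`. -/
noncomputable def clampTo (S t : ℝ) : ℝ := max (-S) (min t S)

theorem clampTo_of_mem {S t : ℝ} (h1 : -S ≤ t) (h2 : t ≤ S) : clampTo S t = t := by
  unfold clampTo
  rw [min_eq_left h2, max_eq_right h1]

theorem clampTo_mem {S : ℝ} (hS : 0 ≤ S) (t : ℝ) : clampTo S t ∈ Icc (-S) S := by
  unfold clampTo
  exact ⟨le_max_left _ _, max_le (by linarith) (min_le_right _ _)⟩

theorem clampTo_lt {S t c : ℝ} (h : t < c) (hc : -S < c) : clampTo S t < c := by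
  unfold clampTo
  exact max_lt hc (lt_of_le_of_lt (min_le_left _ _) h)

theorem lt_clampTo {S t c : ℝ} (h : c < t) (hc : c < S) : c < clampTo S t := by
  unfold clampTo
  exact lt_of_lt_of_le (lt_min h hc) (le_max_right _ _)

/-- **Global existence of the flow** of a compactly supported `C¹` field. -/
theorem exists_flow_global (U : Field) (hU : ContDiff ℝ 1 U) (hc : HasCompactSupport U) :
    ∃ Φ : ℝ → (Fin 3 → ℝ) → (Fin 3 → ℝ), IsFlow U Φ := by
  obtain ⟨T, hT0, hT⟩ := exists_time_bound U hc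
  choose α hα0 hα using exists_traj_gen U hU hc (T + 2) (by linarith)
  have hcont : ∀ x, ContinuousOn (α x) (Icc (-(T + 2)) (T + 2)) :=
    fun x t ht => (hα x t ht).continuousWithinAt
  -- trajectories are constant on `[-(T+2), -T]`
  have hleft : ∀ x, ∀ t ∈ Icc (-(T + 2)) (-T), α x t = α x (-(T + 2)) := by
    intro x
    apply constant_of_has_deriv_right_zero
      ((hcont x).mono (Icc_subset_Icc le_rfl (by linarith)))
    intro t ht
    have ht' : t ∈ Icc (-(T + 2)) (T + 2) := ⟨ht.1, by linarith [ht.2]⟩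
    have hz : U (t, α x t) = 0 := hT _ (by
      show T ≤ |t|
      rw [abs_of_neg (by linarith [ht.2])]
      linarith [ht.2])
    have h := hα x t ht'
    rw [hz] at h
    exact h.mono_of_mem_nhdsWithin (Icc_mem_nhdsGE_of_mem ⟨ht'.1, by linarith [ht.2]⟩)
  -- trajectories are constant on `[T, T+2]`
  have hright : ∀ x, ∀ t ∈ Icc T (T + 2), α x t = α x T := by
    intro x
    apply constant_of_has_deriv_right_zero
      ((hcont x).mono (Icc_subset_Icc (by linarith) le_rfl))
    intro t ht
    have ht' : t ∈ Icc (-(T + 2)) (T + 2) := ⟨by linarith [ht.1], ht.2.le⟩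
    have hz : U (t, α x t) = 0 := hT _ (by
      show T ≤ |t|
      rw [abs_of_pos (by linarith [ht.1])]
      exact ht.1)
    have h := hα x t ht'
    rw [hz] at h
    exact h.mono_of_mem_nhdsWithin (Icc_mem_nhdsGE_of_mem ⟨ht'.1, ht.2⟩)
  have hS1 : (0 : ℝ) ≤ T + 1 := by linarith
  refine ⟨fun t x => α x (clampTo (T + 1) t), fun x => ?_, fun t x => ?_⟩
  · show α x (clampTo (T + 1) 0) = x
    rw [clampTo_of_mem (by linarith) (by linarith)]
    exact hα0 x
  · show HasDerivAt (fun s => α x (clampTo (T + 1) s)) (U (t, α x (clampTo (T + 1) t))) t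
    rcases lt_or_ge t (-T) with ht | ht
    · -- before the active window: locally constant
      have hz : U (t, α x (clampTo (T + 1) t)) = 0 := hT _ (by
        show T ≤ |t|
        rw [abs_of_neg (by linarith)]
        linarith)
      rw [hz]
      have hev : (fun s => α x (clampTo (T + 1) s)) =ᶠ[𝓝 t] fun _ => α x (-(T + 2)) := by
        filter_upwards [Iio_mem_nhds ht] with s hs
        exact hleft x _ ⟨by linarith [(clampTo_mem hS1 s).1],
          (clampTo_lt (show s < -T from hs) (by linarith)).le⟩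
      exact (hasDerivAt_const t (α x (-(T + 2)))).congr_of_eventuallyEq hev
    · rcases le_or_gt t T with ht1 | ht1
      · -- inside `[-T, T]`: the clamp is inactive near `t`
        have hmem : t ∈ Icc (-(T + 2)) (T + 2) := ⟨by linarith, by linarith⟩
        rw [clampTo_of_mem (by linarith) (by linarith)]
        have hd : HasDerivAt (α x) (U (t, α x t)) t :=
          (hα x t hmem).hasDerivAt (Icc_mem_nhds (by linarith) (by linarith))
        have hev : (fun s => α x (clampTo (T + 1) s)) =ᶠ[𝓝 t] α x := by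
          filter_upwards [Ioo_mem_nhds (show -(T + 1) < t by linarith)
            (show t < T + 1 by linarith)] with s hs
          rw [clampTo_of_mem hs.1.le hs.2.le]
        exact hd.congr_of_eventuallyEq hev
      · -- after the active window: locally constant
        have hz : U (t, α x (clampTo (T + 1) t)) = 0 := hT _ (by
          show T ≤ |t|
          rw [abs_of_pos (by linarith)]
          exact ht1.le)
        rw [hz]
        have hev : (fun s => α x (clampTo (T + 1) s)) =ᶠ[𝓝 t] fun _ => α x T := by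
          filter_upwards [Ioi_mem_nhds ht1] with s hs
          exact hright x _ ⟨(lt_clampTo (show T < s from hs) (by linarith)).le,
            by linarith [(clampTo_mem hS1 s).2]⟩
        exact (hasDerivAt_const t (α x T)).congr_of_eventuallyEq hev

/-- **Uniqueness of integral curves**: a curve solving the equation on `[t₁, t₂]` and starting on
a flow line stays on it. -/
theorem flow_unique (U : Field) (hU : ContDiff ℝ 1 U) (hc : HasCompactSupport U)
    {Φ : ℝ → (Fin 3 → ℝ) → (Fin 3 → ℝ)} (hΦ : IsFlow U Φ) {t₁ t₂ : ℝ}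
    {γ : ℝ → Fin 3 → ℝ} {x : Fin 3 → ℝ}
    (hγ : ∀ t ∈ Set.Icc t₁ t₂, HasDerivAt γ (U (t, γ t)) t) (h0 : γ t₁ = Φ t₁ x) :
    ∀ t ∈ Set.Icc t₁ t₂, γ t = Φ t x := by
  obtain ⟨K, hK⟩ := lipschitz_slice U hU hc
  have key : EqOn γ (fun s => Φ s x) (Icc t₁ t₂) := by
    apply ODE_solution_unique (v := fun t y => U (t, y)) (K := K) hK
    · exact fun t ht => (hγ t ht).continuousAt.continuousWithinAt
    · exact fun t ht => (hγ t (Ico_subset_Icc_self ht)).hasDerivWithinAt
    · exact fun t _ => (hΦ.2 t x).continuousAt.continuousWithinAt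
    · exact fun t _ => (hΦ.2 t x).hasDerivWithinAt
    · exact h0
  exact fun t ht => key ht

/-- Smooth version of `exists_flow_global` (the statement of `Box.exists_flow`). -/
theorem exists_flow_smooth {U : Field} (hU : ContDiff ℝ (⊤ : ℕ∞) U) (hc : HasCompactSupport U) :
    ∃ Φ : ℝ → (Fin 3 → ℝ) → (Fin 3 → ℝ), IsFlow U Φ :=
  exists_flow_global U (hU.of_le (mod_cast le_top)) hc

/-- Smooth version of `flow_unique` (the statement of `Box.flow_unique`). -/
theorem flow_unique_smooth {U : Field} (hU : ContDiff ℝ (⊤ : ℕ∞) U) (hc : HasCompactSupport U)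
    {Φ : ℝ → (Fin 3 → ℝ) → (Fin 3 → ℝ)} (hΦ : IsFlow U Φ) {t₁ t₂ : ℝ} (h12 : t₁ ≤ t₂)
    {γ : ℝ → Fin 3 → ℝ} {x : Fin 3 → ℝ}
    (hγ : ∀ t ∈ Set.Icc t₁ t₂, HasDerivAt γ (U (t, γ t)) t) (h0 : γ t₁ = Φ t₁ x) :
    γ t₂ = Φ t₂ x :=
  flow_unique U (hU.of_le (mod_cast le_top)) hc hΦ hγ h0 t₂ ⟨h12, le_rfl⟩

end Crest.Agent.Helper8.FlowODE
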