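import Mathlib
import Crest.Agent.Helper7.Area

set_option autoImplicit false

open MeasureTheory
open scoped ENNReal

namespace Crest.Agent.Helper8.PadCover

open Crest.Agent.Helper7

/-- a cylinder datum: axis `u` and triangle vertices `p q r` -/
abbrev Cyl := E3 × E3 × E3 × E3

/-- unit axis, vertices orthogonal to the axis -/
def Valid (c : Cyl) : Prop :=
  ‖c.1‖ = 1 ∧ inner ℝ c.2.1 c.1 = 0 ∧ inner ℝ c.2.2.1 c.1 = 0 ∧ inner ℝ c.2.2.2 c.1 = 0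

/-- the cylinder over the triangle -/
def cyl (c : Cyl) : Set E3 :=
  {x : E3 | ∃ b ∈ convexHull ℝ {c.2.1, c.2.2.1, c.2.2.2}, ∃ t : ℝ, x = b + t • c.1}

/-- base area -/
noncomputable def area (c : Cyl) : ℝ :=
  (μHE[2] (convexHull ℝ ({c.2.1, c.2.2.1, c.2.2.2} : Set E3))).toReal

theorem append_one (K : Set E3) {n : ℕ} (c : Fin n → Cyl) (c₀ : Cyl) (hv : ∀ i, Valid (c i))
    (h₀ : Valid c₀) (hK : K ⊆ ⋃ i, cyl (c i)) :
    ∃ c' : Fin (n + 1) → Cyl, (∀ i, Valid (c' i)) ∧ K ⊆ ⋃ i, cyl (c' i) ∧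
      ∑ i, area (c' i) = ∑ i, area (c i) + area c₀ := by
  refine ⟨Fin.snoc (α := fun _ => Cyl) c c₀, ?_, ?_, ?_⟩
  · intro i
    refine Fin.lastCases ?_ (fun j => ?_) i
    · rw [Fin.snoc_last]; exact h₀
    · rw [Fin.snoc_castSucc]; exact hv j
  · intro x hx
    obtain ⟨i, hi⟩ := Set.mem_iUnion.mp (hK hx)
    refine Set.mem_iUnion.mpr ⟨i.castSucc, ?_⟩
    rw [Fin.snoc_castSucc]; exact hi
  · rw [Fin.sum_univ_castSucc]
    simp only [Fin.snoc_castSucc, Fin.snoc_last]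

/-- third coordinate vector -/
noncomputable def e3 : E3 := !₂[0, 0, 1]

theorem norm_e3 : ‖e3‖ = 1 := by
  have h : ‖e3‖ ^ 2 = 1 ^ 2 := by rw [norm_sq_E3]; simp [e3]
  exact (sq_eq_sq₀ (norm_nonneg _) zero_le_one).mp h

/-- the degenerate cylinder -/
noncomputable def cz : Cyl := (e3, 0, 0, 0)

theorem valid_cz : Valid cz :=
  ⟨norm_e3, inner_zero_left _, inner_zero_left _, inner_zero_left _⟩

theorem area_cz : area cz = 0 := by
  unfold area cz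
  rw [muHE_triangle]
  simp [gram]

/-- a right triangle of area `a / 2` in the plane `e3^⊥` -/
noncomputable def ce (a : ℝ) : Cyl := (e3, 0, !₂[a, 0, 0], !₂[0, 1, 0])

theorem valid_ce (a : ℝ) : Valid (ce a) := by
  refine ⟨norm_e3, inner_zero_left _, ?_, ?_⟩
  · show inner ℝ (!₂[a, 0, 0] : E3) e3 = 0
    rw [inner_E3]; simp [e3]
  · show inner ℝ (!₂[0, 1, 0] : E3) e3 = 0
    rw [inner_E3]; simp [e3]

theorem area_ce {a : ℝ} (ha : 0 ≤ a) : area (ce a) = a / 2 := by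
  unfold area ce
  rw [muHE_triangle]
  have hg : gram ((!₂[a, 0, 0] : E3) - 0) ((!₂[0, 1, 0] : E3) - 0) = a ^ 2 := by
    unfold gram
    rw [sub_zero, sub_zero, norm_sq_E3, norm_sq_E3, inner_E3]
    simp
  show (ENNReal.ofReal (Real.sqrt (gram ((!₂[a, 0, 0] : E3) - 0) ((!₂[0, 1, 0] : E3) - 0)) / 2)).toReal
    = a / 2
  rw [hg, Real.sqrt_sq ha, ENNReal.toReal_ofReal (by positivity)]

theorem pad_zero (K : Set E3) {n : ℕ} (c : Fin n → Cyl) (hv : ∀ i, Valid (c i))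
    (hK : K ⊆ ⋃ i, cyl (c i)) (d : ℕ) :
    ∃ c' : Fin (n + d) → Cyl, (∀ i, Valid (c' i)) ∧ K ⊆ ⋃ i, cyl (c' i) ∧
      ∑ i, area (c' i) = ∑ i, area (c i) := by
  induction d with
  | zero => exact ⟨c, hv, hK, rfl⟩
  | succ d ih =>
    obtain ⟨c', hv', hK', hs'⟩ := ih
    obtain ⟨c'', hv'', hK'', hs''⟩ := append_one K c' cz hv' valid_cz hK'
    have hs3 : ∑ i, area (c'' i) = ∑ i, area (c i) := by rw [hs'', hs', area_cz, add_zero]
    exact ⟨c'', hv'', hK'', hs3⟩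

theorem pad (K : Set E3) {n : ℕ} (c : Fin n → Cyl) (hv : ∀ i, Valid (c i))
    (hK : K ⊆ ⋃ i, cyl (c i)) (T : ℝ) (hT : ∑ i, area (c i) ≤ T) (M : ℕ) (hM : n + 1 ≤ M) :
    ∃ c' : Fin M → Cyl, (∀ i, Valid (c' i)) ∧ K ⊆ ⋃ i, cyl (c' i) ∧ ∑ i, area (c' i) = T := by
  obtain ⟨d, rfl⟩ := Nat.exists_eq_add_of_le hM
  obtain ⟨c₁, hv₁, hK₁, hs₁⟩ :=
    append_one K c (ce (2 * (T - ∑ i, area (c i)))) hv (valid_ce _) hK
  obtain ⟨c₂, hv₂, hK₂, hs₂⟩ := pad_zero K c₁ hv₁ hK₁ d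
  refine ⟨c₂, hv₂, hK₂, ?_⟩
  rw [hs₂, hs₁, area_ce (by linarith)]
  ring

/-- **Padding lemma**: a cover by `m` triangular cylinders of total base area `≤ T` can be
replaced by a cover by exactly `M ≥ m + 1` triangular cylinders of total base area exactly `T`. -/
theorem pad_cover (K : Set E3) (m : ℕ) (u p q r : Fin m → E3) (hu : ∀ i, ‖u i‖ = 1)
    (hperp : ∀ i, inner ℝ (p i) (u i) = 0 ∧ inner ℝ (q i) (u i) = 0 ∧ inner ℝ (r i) (u i) = 0)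
    (hcov : K ⊆ ⋃ i, {x : E3 | ∃ b ∈ convexHull ℝ {p i, q i, r i}, ∃ t : ℝ, x = b + t • u i})
    (T : ℝ) (hT : ∑ i, (μHE[2] (convexHull ℝ ({p i, q i, r i} : Set E3))).toReal ≤ T)
    (M : ℕ) (hM : m + 1 ≤ M) :
    ∃ (u' p' q' r' : Fin M → E3), (∀ i, ‖u' i‖ = 1) ∧
      (∀ i, inner ℝ (p' i) (u' i) = 0 ∧ inner ℝ (q' i) (u' i) = 0 ∧ inner ℝ (r' i) (u' i) = 0) ∧
      K ⊆ ⋃ i, {x : E3 | ∃ b ∈ convexHull ℝ {p' i, q' i, r' i}, ∃ t : ℝ, x = b + t • u' i} ∧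
      ∑ i, (μHE[2] (convexHull ℝ ({p' i, q' i, r' i} : Set E3))).toReal = T := by
  obtain ⟨c', hv', hK', hs'⟩ := pad K (fun i => ((u i, p i, q i, r i) : Cyl))
    (fun i => ⟨hu i, (hperp i).1, (hperp i).2.1, (hperp i).2.2⟩) hcov T hT M hM
  exact ⟨fun i => (c' i).1, fun i => (c' i).2.1, fun i => (c' i).2.2.1, fun i => (c' i).2.2.2,
    fun i => (hv' i).1, fun i => ⟨(hv' i).2.1, (hv' i).2.2.1, (hv' i).2.2.2⟩, hK', hs'⟩

/-- The second conjunct of S0325 from one fixed cover with at most `15999999` cylinders and total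
base area `≤ √2 (1/2 − 13/6000 (1/2000)²)`. -/
theorem part2_of_cover (K : Set E3) (m : ℕ) (hm : m + 1 ≤ 16000000) (u p q r : Fin m → E3)
    (hu : ∀ i, ‖u i‖ = 1)
    (hperp : ∀ i, inner ℝ (p i) (u i) = 0 ∧ inner ℝ (q i) (u i) = 0 ∧ inner ℝ (r i) (u i) = 0)
    (hcov : K ⊆ ⋃ i, {x : E3 | ∃ b ∈ convexHull ℝ {p i, q i, r i}, ∃ t : ℝ, x = b + t • u i})
    (hA : ∑ i, (μHE[2] (convexHull ℝ ({p i, q i, r i} : Set E3))).toReal
      ≤ Real.sqrt 2 * (1 / 2 - 13 / 6000 * (1 / 2000) ^ 2)) :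
    ∀ ε : ℝ, 0 < ε → ε ≤ 1 / 2000 →
      ∃ (u p q r : Fin (2 * ⌈2 / ε ^ 2⌉₊) → E3),
        (∀ i, ‖u i‖ = 1) ∧
        (∀ i, inner ℝ (p i) (u i) = 0 ∧ inner ℝ (q i) (u i) = 0 ∧ inner ℝ (r i) (u i) = 0) ∧
        K ⊆ ⋃ i, {x : E3 | ∃ b ∈ convexHull ℝ {p i, q i, r i}, ∃ t : ℝ, x = b + t • u i} ∧
        |(∑ i, (μHE[2] (convexHull ℝ ({p i, q i, r i} : Set E3))).toReal) / Real.sqrt 2 -
            (1 / 2 - 13 / 6000 * ε ^ 2)| ≤ 2 * ε ^ 4 := by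
  intro ε hε hε'
  have hs2 : 0 < Real.sqrt 2 := Real.sqrt_pos.mpr (by norm_num)
  have hε2 : ε ^ 2 ≤ (1 / 2000) ^ 2 := pow_le_pow_left₀ hε.le hε' 2
  have hT : ∑ i, (μHE[2] (convexHull ℝ ({p i, q i, r i} : Set E3))).toReal
      ≤ Real.sqrt 2 * (1 / 2 - 13 / 6000 * ε ^ 2) :=
    hA.trans (mul_le_mul_of_nonneg_left (by linarith) hs2.le)
  have hceil : (8000000 : ℝ) ≤ (⌈2 / ε ^ 2⌉₊ : ℝ) := by
    refine le_trans ?_ (Nat.le_ceil _)
    rw [le_div_iff₀ (by positivity)]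
    nlinarith
  have hceil' : 8000000 ≤ ⌈2 / ε ^ 2⌉₊ := by exact_mod_cast hceil
  have hM : m + 1 ≤ 2 * ⌈2 / ε ^ 2⌉₊ := by omega
  obtain ⟨u', p', q', r', hu', hperp', hcov', hs'⟩ :=
    pad_cover K m u p q r hu hperp hcov _ hT _ hM
  refine ⟨u', p', q', r', hu', hperp', hcov', ?_⟩
  rw [hs', mul_div_cancel_left₀ _ hs2.ne', sub_self, abs_zero]
  positivity

/-! ### From `μHE[2]` to `μH[2]` (for S0324) -/

/-- the normalising constant of `μHE[2]`, as a real number -/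
noncomputable def kap : ℝ :=
  ((Measure.addHaarScalarFactor (volume : Measure (EuclideanSpace ℝ (Fin 2)))
      μH[((2 : ℕ) : ℝ)] : NNReal) : ℝ)

theorem kap_pos : 0 < kap := by
  unfold kap
  have h := MeasureTheory.Measure.addHaarScalarFactor_volume_hausdorffMeasure_ne_zero 2
  exact_mod_cast pos_iff_ne_zero.mpr h

theorem muH_toReal (S : Set E3) : (μH[(2 : ℝ)] S).toReal = (μHE[2] S).toReal / kap := by
  rw [muHE_eq_smul_muH S, ENNReal.smul_def, smul_eq_mul, ENNReal.toReal_mul]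
  have hk := kap_pos
  unfold kap at hk ⊢
  rw [ENNReal.coe_toReal]
  field_simp

/-- The statement of S0324 (for a set `K`) from a cover with total `μHE[2]`-area at most
`√2 (1/2 − 13/6000 (1/2000)²)` and the lower bound `√2` for all projection areas. -/
theorem s0324_of_cover (K : Set E3)
    (hge : ∀ v : E3, ‖v‖ = 1 →
      ENNReal.ofReal (Real.sqrt 2) ≤ μHE[2] ((fun y : E3 => y - inner ℝ y v • v) '' K))
    (hfin : ∀ v : E3, ‖v‖ = 1 → μHE[2] ((fun y : E3 => y - inner ℝ y v • v) '' K) < ⊤)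
    (m : ℕ) (u p q r : Fin m → E3) (hu : ∀ i, ‖u i‖ = 1)
    (hperp : ∀ i, inner ℝ (p i) (u i) = 0 ∧ inner ℝ (q i) (u i) = 0 ∧ inner ℝ (r i) (u i) = 0)
    (hcov : K ⊆ ⋃ i, {x : E3 | ∃ b ∈ convexHull ℝ {p i, q i, r i}, ∃ t : ℝ, x = b + t • u i})
    (hA : ∑ i, (μHE[2] (convexHull ℝ ({p i, q i, r i} : Set E3))).toReal
      ≤ Real.sqrt 2 * (1 / 2 - 13 / 6000 * (1 / 2000) ^ 2)) :
    ∃ (m : ℕ) (u p q r : Fin m → E3),
      (∀ i, ‖u i‖ = 1) ∧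
      (∀ i, inner ℝ (p i) (u i) = 0 ∧ inner ℝ (q i) (u i) = 0 ∧ inner ℝ (r i) (u i) = 0) ∧
      K ⊆ ⋃ i, {x : E3 | ∃ b ∈ convexHull ℝ {p i, q i, r i}, ∃ t : ℝ, x = b + t • u i} ∧
      ∃ δ : ℝ, 0 < δ ∧ ∀ v : E3, ‖v‖ = 1 →
        ∑ i, (μH[(2 : ℝ)] (convexHull ℝ {p i, q i, r i})).toReal + δ ≤
          (μH[(2 : ℝ)] ((fun y => y - inner ℝ y v • v) '' K)).toReal / 2 := by
  have hk := kap_pos
  have hs2 : 0 < Real.sqrt 2 := Real.sqrt_pos.mpr (by norm_num)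
  refine ⟨m, u, p, q, r, hu, hperp, hcov,
    Real.sqrt 2 * (13 / 6000 * (1 / 2000) ^ 2) / kap, by positivity, fun v hv => ?_⟩
  have h1 : Real.sqrt 2 ≤ (μHE[2] ((fun y : E3 => y - inner ℝ y v • v) '' K)).toReal := by
    have := ENNReal.toReal_mono (hfin v hv).ne (hge v hv)
    rwa [ENNReal.toReal_ofReal hs2.le] at this
  have h2 : ∑ i, (μH[(2 : ℝ)] (convexHull ℝ {p i, q i, r i})).toReal
      = (∑ i, (μHE[2] (convexHull ℝ ({p i, q i, r i} : Set E3))).toReal) / kap := by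
    rw [Finset.sum_div]
    exact Finset.sum_congr rfl (fun i _ => muH_toReal _)
  rw [h2, muH_toReal, ← add_div, div_div, div_le_div_iff₀ hk (by positivity)]
  nlinarith [mul_pos hk hk]

end Crest.Agent.Helper8.PadCover
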